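import Mathlib

/-!
Midpoint Prékopa–Leindler / Brunn–Minkowski inequality.
-/

set_option autoImplicit false

open MeasureTheory Set
open scoped ENNReal NNReal

namespace Crest.Agent.Lib.Prekopa

lemma volume_preimage_two_mul_sub (A : Set ℝ) (b : ℝ) :
    2 * volume ((fun z : ℝ => 2 * z - b) ⁻¹' A) = volume A := by
  have h1 : (fun z : ℝ => 2 * z - b) ⁻¹' A =
      (fun z : ℝ => 2 * z) ⁻¹' ((fun z : ℝ => z + -b) ⁻¹' A) := by
    ext z; simp [sub_eq_add_neg]
  rw [h1, Real.volume_preimage_mul_left two_ne_zero, measure_preimage_add_right, ← mul_assoc]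
  have : (2 : ℝ≥0∞) * ENNReal.ofReal |(2 : ℝ)⁻¹| = 1 := by
    rw [abs_of_pos (by norm_num), ENNReal.ofReal_inv_of_pos two_pos, ENNReal.ofReal_ofNat]
    exact ENNReal.mul_inv_cancel (by simp) (by simp)
  rw [this, one_mul]

/-- One-dimensional Brunn–Minkowski for compact sets. -/
lemma bm_one_compact {A B C : Set ℝ} (hA : IsCompact A) (hB : IsCompact B) (hA0 : A.Nonempty)
    (hB0 : B.Nonempty) (h : ∀ x ∈ A, ∀ y ∈ B, (x + y) / 2 ∈ C) :
    volume A + volume B ≤ 2 * volume C := by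
  obtain ⟨a, ha, ha'⟩ := hA.exists_isGreatest hA0
  obtain ⟨b, hb, hb'⟩ := hB.exists_isLeast hB0
  have h1 : (fun z : ℝ => 2 * z - b) ⁻¹' A ⊆ C ∩ Iic ((a + b) / 2) := fun z hz => by
    refine ⟨?_, ?_⟩
    · have := h _ hz b hb
      simpa using this
    · have := ha' hz
      simp only [mem_Iic] at this ⊢
      linarith
  have h2 : (fun z : ℝ => 2 * z - a) ⁻¹' B ⊆ (C \ Iic ((a + b) / 2)) ∪ {(a + b) / 2} :=
    fun z hz => by
      have h3 : z ∈ C := by
        have := h a ha _ hz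
        simpa using this
      have h4 : b ≤ 2 * z - a := hb' hz
      rcases eq_or_lt_of_le h4 with h5 | h5
      · right
        simp only [mem_singleton_iff]
        linarith
      · left
        refine ⟨h3, ?_⟩
        simp only [mem_Iic, not_le]
        linarith
  have h3 := measure_inter_add_sdiff (μ := volume) C (measurableSet_Iic (a := (a + b) / 2))
  have h4 : volume ((fun z : ℝ => 2 * z - a) ⁻¹' B) ≤ volume (C \ Iic ((a + b) / 2)) :=
    (measure_mono h2).trans ((measure_union_le _ _).trans (by simp))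
  rw [← volume_preimage_two_mul_sub A b, ← volume_preimage_two_mul_sub B a, ← mul_add, ← h3]
  gcongr

lemma volume_le_iSup_compact {A : Set ℝ} (hA : MeasurableSet A) (hA0 : A.Nonempty) :
    volume A ≤ ⨆ K : {K : Set ℝ // K ⊆ A ∧ IsCompact K ∧ K.Nonempty}, volume (K : Set ℝ) := by
  obtain ⟨a, ha⟩ := hA0
  refine le_of_forall_lt fun r hr => ?_
  obtain ⟨K, hK1, hK2, hK3⟩ := hA.exists_lt_isCompact hr
  refine lt_of_lt_of_le (hK3.trans_le (measure_mono (subset_insert a K))) ?_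
  exact le_iSup (fun K : {K : Set ℝ // K ⊆ A ∧ IsCompact K ∧ K.Nonempty} => volume (K : Set ℝ))
    ⟨insert a K, insert_subset ha hK1, hK2.insert a, insert_nonempty _ _⟩

/-- One-dimensional Brunn–Minkowski at the midpoint. -/
lemma bm_one {A B C : Set ℝ} (hA : MeasurableSet A) (hB : MeasurableSet B) (hA0 : A.Nonempty)
    (hB0 : B.Nonempty) (h : ∀ x ∈ A, ∀ y ∈ B, (x + y) / 2 ∈ C) :
    volume A + volume B ≤ 2 * volume C := by
  refine (add_le_add (volume_le_iSup_compact hA hA0) (volume_le_iSup_compact hB hB0)).trans ?_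
  obtain ⟨a, ha⟩ := hA0
  obtain ⟨b, hb⟩ := hB0
  have : Nonempty {K : Set ℝ // K ⊆ A ∧ IsCompact K ∧ K.Nonempty} :=
    ⟨⟨{a}, singleton_subset_iff.2 ha, isCompact_singleton, singleton_nonempty _⟩⟩
  have : Nonempty {K : Set ℝ // K ⊆ B ∧ IsCompact K ∧ K.Nonempty} :=
    ⟨⟨{b}, singleton_subset_iff.2 hb, isCompact_singleton, singleton_nonempty _⟩⟩
  refine ENNReal.iSup_add_iSup_le fun K L => ?_
  exact bm_one_compact K.2.2.1 L.2.2.1 K.2.2.2 L.2.2.2 fun x hx y hy => h x (K.2.1 hx) y (L.2.1 hy)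

/-- Layer cake formula for the truncation at height one. -/
lemma lintegral_min_one {X : Type*} [MeasurableSpace X] (μ : Measure X) {F : X → ℝ≥0∞}
    (hF : Measurable F) :
    ∫⁻ x, min (F x) 1 ∂μ = ∫⁻ t in Ioo (0 : ℝ) 1, μ {x | ENNReal.ofReal t < F x} := by
  have hne : ∀ x, min (F x) 1 ≠ ⊤ := fun x => ne_top_of_le_ne_top ENNReal.one_ne_top (min_le_right _ _)
  have h1 := lintegral_eq_lintegral_meas_lt μ (f := fun x => (min (F x) 1).toReal)
    (Filter.Eventually.of_forall fun x => ENNReal.toReal_nonneg)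
    (hF.min measurable_const).ennreal_toReal.aemeasurable
  simp only [ENNReal.ofReal_toReal (hne _)] at h1
  rw [h1, ← Ioo_union_Ici_eq_Ioi zero_lt_one, lintegral_union measurableSet_Ici
    (by simp [Set.disjoint_left])]
  have h2 : ∫⁻ t in Ici (1 : ℝ), μ {x | t < (min (F x) 1).toReal} = 0 := by
    refine (setLIntegral_congr_fun measurableSet_Ici (g := fun _ => 0) fun t ht => ?_).trans
      lintegral_zero
    have : {x | t < (min (F x) 1).toReal} = ∅ := by
      refine eq_empty_of_forall_notMem fun x hx => ?_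
      have h3 : (min (F x) 1).toReal ≤ 1 := ENNReal.toReal_le_of_le_ofReal zero_le_one
        (by simp)
      exact absurd (lt_of_lt_of_le hx h3) (not_lt.2 ht)
    simp only [this, measure_empty]
  rw [h2, add_zero]
  refine setLIntegral_congr_fun measurableSet_Ioo fun t ht => ?_
  congr 1
  ext x
  simp only [mem_ofPred_eq]
  rw [← ENNReal.ofReal_lt_iff_lt_toReal ht.1.le (hne x), lt_min_iff]
  exact and_iff_left (ENNReal.ofReal_lt_one.2 ht.2)

lemma mul_le_sq_of_add_le {a b c : ℝ≥0∞} (h : a + b ≤ 2 * c) : a * b ≤ c ^ 2 := by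
  rcases eq_or_ne c ⊤ with rfl | hc
  · simp
  have h2 : a + b ≠ ⊤ := ne_top_of_le_ne_top (ENNReal.mul_ne_top (by simp) hc) h
  obtain ⟨ha, hb⟩ := ENNReal.add_ne_top.1 h2
  lift a to ℝ≥0 using ha
  lift b to ℝ≥0 using hb
  lift c to ℝ≥0 using hc
  have h3 : (a : ℝ) + b ≤ 2 * c := by exact_mod_cast h
  have h4 : (a : ℝ) * b ≤ c ^ 2 := by
    nlinarith [sq_nonneg ((a : ℝ) - b), a.2, b.2, mul_self_le_mul_self (by positivity) h3]
  exact_mod_cast h4

lemma pl_one_normalised {f g h : ℝ → ℝ≥0∞} (hf : Measurable f) (hg : Measurable g)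
    (hh : Measurable h) (hf1 : ⨆ x, f x = 1) (hg1 : ⨆ x, g x = 1)
    (H : ∀ x y, f x * g y ≤ h ((x + y) / 2) ^ 2) :
    (∫⁻ x, f x) * ∫⁻ x, g x ≤ (∫⁻ x, h x) ^ 2 := by
  refine mul_le_sq_of_add_le ?_
  have e1 : ∫⁻ x, f x = ∫⁻ x, min (f x) 1 :=
    lintegral_congr fun x => (min_eq_left (hf1 ▸ le_iSup f x)).symm
  have e2 : ∫⁻ x, g x = ∫⁻ x, min (g x) 1 :=
    lintegral_congr fun x => (min_eq_left (hg1 ▸ le_iSup g x)).symm
  have e3 : ∫⁻ x, min (h x) 1 ≤ ∫⁻ x, h x := lintegral_mono fun x => min_le_left _ _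
  refine le_trans ?_ (mul_le_mul_right e3 2)
  have hanti : Measurable fun t : ℝ => volume {x | ENNReal.ofReal t < f x} := by
    refine Antitone.measurable fun s t hst => measure_mono fun x hx => ?_
    exact lt_of_le_of_lt (ENNReal.ofReal_le_ofReal hst) hx
  rw [e1, e2, lintegral_min_one _ hf, lintegral_min_one _ hg, lintegral_min_one _ hh,
    ← lintegral_add_left hanti, ← lintegral_const_mul' _ _ (by simp)]
  refine setLIntegral_mono' measurableSet_Ioo fun t ht => ?_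
  have ht1 : ENNReal.ofReal t < 1 := ENNReal.ofReal_lt_one.2 ht.2
  have n1 : ∃ x, ENNReal.ofReal t < f x := lt_iSup_iff.1 (by rw [hf1]; exact ht1)
  have n2 : ∃ x, ENNReal.ofReal t < g x := lt_iSup_iff.1 (by rw [hg1]; exact ht1)
  refine bm_one (measurableSet_lt measurable_const hf) (measurableSet_lt measurable_const hg)
    n1 n2 fun x hx y hy => ?_
  have h1 : ENNReal.ofReal t ^ 2 < h ((x + y) / 2) ^ 2 := by
    rw [sq]
    exact lt_of_lt_of_le (ENNReal.mul_lt_mul hx hy) (H x y)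
  exact lt_of_pow_lt_pow_left' 2 h1

lemma pl_one_bounded {f g h : ℝ → ℝ≥0∞} (hf : Measurable f) (hg : Measurable g)
    (hh : Measurable h) (hf1 : ⨆ x, f x ≠ ⊤) (hg1 : ⨆ x, g x ≠ ⊤)
    (H : ∀ x y, f x * g y ≤ h ((x + y) / 2) ^ 2) :
    (∫⁻ x, f x) * ∫⁻ x, g x ≤ (∫⁻ x, h x) ^ 2 := by
  rcases eq_or_ne (⨆ x, f x) 0 with hf0 | hf0
  · have : ∀ x, f x = 0 := fun x => le_antisymm (hf0 ▸ le_iSup f x) zero_le
    simp [this]
  rcases eq_or_ne (⨆ x, g x) 0 with hg0 | hg0
  · have : ∀ x, g x = 0 := fun x => le_antisymm (hg0 ▸ le_iSup g x) zero_le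
    simp [this]
  set a := ⨆ x, f x with ha
  set b := ⨆ x, g x with hb
  obtain ⟨c, hc⟩ : ∃ c : ℝ≥0∞, c ^ 2 = a⁻¹ * b⁻¹ :=
    ⟨(a⁻¹ * b⁻¹) ^ (2⁻¹ : ℝ), by simpa using ENNReal.rpow_inv_natCast_pow two_ne_zero _⟩
  have key := pl_one_normalised (f := fun x => a⁻¹ * f x) (g := fun x => b⁻¹ * g x)
    (h := fun x => c * h x) (hf.const_mul _) (hg.const_mul _) (hh.const_mul _)
    (by rw [← ENNReal.mul_iSup]; exact ENNReal.inv_mul_cancel hf0 hf1)
    (by rw [← ENNReal.mul_iSup]; exact ENNReal.inv_mul_cancel hg0 hg1)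
    (fun x y => by
      rw [mul_pow, hc, mul_mul_mul_comm]
      exact mul_le_mul_right (H x y) _)
  rw [lintegral_const_mul _ hf, lintegral_const_mul _ hg, lintegral_const_mul _ hh, mul_pow, hc,
    mul_mul_mul_comm] at key
  exact (ENNReal.mul_le_mul_iff_right
    (mul_ne_zero (ENNReal.inv_ne_zero.2 hf1) (ENNReal.inv_ne_zero.2 hg1))
    (ENNReal.mul_ne_top (ENNReal.inv_ne_top.2 hf0) (ENNReal.inv_ne_top.2 hg0))).1 key

lemma lintegral_eq_iSup_min {X : Type*} [MeasurableSpace X] (μ : Measure X) {f : X → ℝ≥0∞}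
    (hf : Measurable f) : ∫⁻ x, f x ∂μ = ⨆ n : ℕ, ∫⁻ x, min (f x) n ∂μ := by
  rw [← lintegral_iSup (fun n => hf.min measurable_const)
    (fun n m hnm x => min_le_min_left _ (Nat.cast_le.2 hnm))]
  refine lintegral_congr fun x => ?_
  rw [← inf_iSup_eq (f x) (fun n : ℕ => (n : ℝ≥0∞)), ENNReal.iSup_natCast, inf_top_eq]

/-- One-dimensional midpoint Prékopa–Leindler inequality. -/
theorem pl_one {f g h : ℝ → ℝ≥0∞} (hf : Measurable f) (hg : Measurable g)
    (hh : Measurable h) (H : ∀ x y, f x * g y ≤ h ((x + y) / 2) ^ 2) :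
    (∫⁻ x, f x) * ∫⁻ x, g x ≤ (∫⁻ x, h x) ^ 2 := by
  rw [lintegral_eq_iSup_min _ hf, lintegral_eq_iSup_min _ hg, ENNReal.iSup_mul]
  refine iSup_le fun n => ?_
  rw [ENNReal.mul_iSup]
  refine iSup_le fun m => ?_
  exact pl_one_bounded (hf.min measurable_const) (hg.min measurable_const) hh
    (ne_top_of_le_ne_top (ENNReal.natCast_ne_top n) (iSup_le fun x => min_le_right _ _))
    (ne_top_of_le_ne_top (ENNReal.natCast_ne_top m) (iSup_le fun x => min_le_right _ _))
    fun x y => (mul_le_mul' (min_le_left _ _) (min_le_left _ _)).trans (H x y)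

/-- Midpoint Prékopa–Leindler inequality on `Fin n → ℝ`. -/
theorem pl_pi (n : ℕ) : ∀ {f g h : (Fin n → ℝ) → ℝ≥0∞}, Measurable f → Measurable g →
    Measurable h → (∀ x y, f x * g y ≤ h ((1 / 2 : ℝ) • x + (1 / 2 : ℝ) • y) ^ 2) →
    (∫⁻ x, f x) * ∫⁻ x, g x ≤ (∫⁻ x, h x) ^ 2 := by
  induction n with
  | zero =>
    intro f g h _ _ _ H
    have hv : (volume : Measure (Fin 0 → ℝ)) univ = 1 := by simp [volume_pi]
    simp only [lintegral_unique, hv, mul_one]
    convert H default default using 3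
  | succ n ih =>
    intro f g h hf hg hh H
    set e := MeasurableEquiv.piFinSuccAbove (fun _ : Fin (n + 1) => ℝ) 0 with he
    have hmp := (volume_preserving_piFinSuccAbove (fun _ : Fin (n + 1) => ℝ) 0).symm
    have split : ∀ F : (Fin (n + 1) → ℝ) → ℝ≥0∞, Measurable F →
        ∫⁻ x, F x = ∫⁻ a, ∫⁻ x, F (e.symm (a, x)) := fun F hF => by
      rw [← hmp.lintegral_comp hF, Measure.volume_eq_prod]
      exact lintegral_prod _ (hF.comp e.symm.measurable).aemeasurable
    have hm : ∀ F : (Fin (n + 1) → ℝ) → ℝ≥0∞, Measurable F →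
        Measurable fun a => ∫⁻ x, F (e.symm (a, x)) := fun F hF =>
      (hF.comp e.symm.measurable).lintegral_prod_right'
    have hm' : ∀ F : (Fin (n + 1) → ℝ) → ℝ≥0∞, Measurable F → ∀ a,
        Measurable fun x => F (e.symm (a, x)) := fun F hF a =>
      (hF.comp e.symm.measurable).comp measurable_prodMk_left
    rw [split f hf, split g hg, split h hh]
    refine pl_one (hm f hf) (hm g hg) (hm h hh) fun a b => ?_
    refine ih (hm' f hf a) (hm' g hg b) (hm' h hh _) fun x y => ?_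
    convert H (e.symm (a, x)) (e.symm (b, y)) using 3
    funext i
    refine Fin.cases ?_ (fun j => ?_) i
    · simp [he, MeasurableEquiv.piFinSuccAbove, Fin.insertNthEquiv]
      ring
    · simp [he, MeasurableEquiv.piFinSuccAbove, Fin.insertNthEquiv]

/-- Midpoint Prékopa–Leindler inequality on Euclidean space. -/
theorem pl_euclidean {d : ℕ} {f g h : EuclideanSpace ℝ (Fin d) → ℝ≥0∞} (hf : Measurable f)
    (hg : Measurable g) (hh : Measurable h)
    (H : ∀ x y, f x * g y ≤ h ((1 / 2 : ℝ) • x + (1 / 2 : ℝ) • y) ^ 2) :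
    (∫⁻ x, f x) * ∫⁻ x, g x ≤ (∫⁻ x, h x) ^ 2 := by
  have hmp := PiLp.volume_preserving_toLp (Fin d)
  rw [← hmp.lintegral_comp hf, ← hmp.lintegral_comp hg, ← hmp.lintegral_comp hh]
  exact pl_pi d (hf.comp hmp.measurable) (hg.comp hmp.measurable) (hh.comp hmp.measurable)
    fun x y => H _ _

/-- Multiplicative Brunn–Minkowski at the midpoint. -/
theorem volume_mul_le_sq {d : ℕ} (A B C : Set (EuclideanSpace ℝ (Fin d)))
    (hA : MeasurableSet A) (hB : MeasurableSet B) (hC : MeasurableSet C)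
    (h : ∀ x ∈ A, ∀ y ∈ B, (1 / 2 : ℝ) • x + (1 / 2 : ℝ) • y ∈ C) :
    volume A * volume B ≤ volume C ^ 2 := by
  rw [← lintegral_indicator_one hA, ← lintegral_indicator_one hB, ← lintegral_indicator_one hC]
  refine pl_euclidean (measurable_one.indicator hA) (measurable_one.indicator hB)
    (measurable_one.indicator hC) fun x y => ?_
  by_cases hx : x ∈ A
  · by_cases hy : y ∈ B
    · rw [indicator_of_mem hx, indicator_of_mem hy, indicator_of_mem (h x hx y hy)]
      simp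
    · simp [hy]
  · simp [hx]

end Crest.Agent.Lib.Prekopa
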